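import Mathlib

/-!
P212, printable form of the statement: metric spaces and Rips complexes.
-/

open Filter Topology

namespace VP212.Lit

/-- Uniform discreteness. -/
def UniformlyDiscrete (X : Type) [MetricSpace X] : Prop :=
  ∃ δ : ℝ, 0 < δ ∧ ∀ x y : X, x ≠ y → δ ≤ dist x y

/-- Bounded geometry. -/
def BoundedGeometry (X : Type) [MetricSpace X] : Prop :=
  ∀ R : ℝ, ∃ N : ℕ, ∀ x : X, (Metric.closedBall x R).Finite ∧ (Metric.closedBall x R).ncard ≤ N

/-- A point of the Rips complex of scale `R`: barycentric coordinates with finite support of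
diameter at most `R`. -/
structure RipsPt (X : Type) [MetricSpace X] (R : ℝ) where
  coeff : X → ℝ
  nonneg : ∀ x, 0 ≤ coeff x
  finite : {x | coeff x ≠ 0}.Finite
  sum_one : ∑ᶠ x, coeff x = 1
  diam : ∀ x y, coeff x ≠ 0 → coeff y ≠ 0 → dist x y ≤ R

/-- Convergence of every coordinate; for bounded geometry this is the weak topology. -/
instance ripsTopology (X : Type) [MetricSpace X] (R : ℝ) : TopologicalSpace (RipsPt X R) :=
  TopologicalSpace.induced RipsPt.coeff inferInstance

variable {X : Type} [MetricSpace X]

/-- The inclusion into a larger Rips complex. -/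
def RipsPt.incl {R R' : ℝ} (h : R ≤ R') (p : RipsPt X R) : RipsPt X R' :=
  ⟨p.coeff, p.nonneg, p.finite, p.sum_one, fun x y hx hy => (p.diam x y hx hy).trans h⟩

/-- A continuous function vanishing at infinity on the Rips complex. -/
structure C0Fun (X : Type) [MetricSpace X] (R : ℝ) where
  toFun : RipsPt X R → ℂ
  cont : Continuous toFun
  vanish : Tendsto toFun (cocompact (RipsPt X R)) (𝓝 0)

theorem incl_closedEmbedding {R R' : ℝ} (h : R ≤ R') :
    IsClosedEmbedding (RipsPt.incl (X := X) h) := by
  have hc : ∀ {S : ℝ} (x : X), Continuous fun p : RipsPt X S => p.coeff x := fun x =>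
    (continuous_apply x).comp continuous_induced_dom
  refine ⟨⟨⟨?_⟩, ?_⟩, ?_⟩
  · show TopologicalSpace.induced RipsPt.coeff _ =
      TopologicalSpace.induced _ (TopologicalSpace.induced RipsPt.coeff _)
    rw [induced_compose]
    rfl
  · intro p q hpq
    cases p; cases q
    simpa [RipsPt.incl] using hpq
  · have : Set.range (RipsPt.incl (X := X) h) = ⋂ (x : X) (y : X) (_ : R < dist x y),
        {p : RipsPt X R' | p.coeff x = 0} ∪ {p : RipsPt X R' | p.coeff y = 0} := by
      ext p
      simp only [Set.mem_iInter, Set.mem_union, Set.mem_setOf_eq]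
      constructor
      · rintro ⟨q, rfl⟩ x y hxy
        by_contra hne
        rw [not_or] at hne
        exact absurd (q.diam x y hne.1 hne.2) (not_le.2 hxy)
      · intro hp
        refine ⟨⟨p.coeff, p.nonneg, p.finite, p.sum_one, fun x y hx hy => ?_⟩, rfl⟩
        by_contra hne
        exact (hp x y (not_le.1 hne)).elim hx hy
    rw [this]
    exact isClosed_iInter fun x => isClosed_iInter fun y => isClosed_iInter fun _ =>
      (isClosed_eq (hc x) continuous_const).union (isClosed_eq (hc y) continuous_const)

/-- Restriction of a function to a smaller Rips complex. -/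
def C0Fun.restrict {R R' : ℝ} (h : R ≤ R') (f : C0Fun X R') : C0Fun X R :=
  ⟨fun p => f.toFun (p.incl h), f.cont.comp (incl_closedEmbedding h).continuous,
    f.vanish.comp (incl_closedEmbedding h).tendsto_cocompact⟩

end VP212.Lit
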