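import Mathlib

/-!
P212, printable form of the statement: Hilbert spaces and their operators.
-/

open scoped InnerProductSpace

namespace VP212.Lit

universe u v

/-- A Hilbert space. -/
structure HS where
  carrier : Type u
  [normed : NormedAddCommGroup carrier]
  [inner : InnerProductSpace ℂ carrier]
  [complete : CompleteSpace carrier]

attribute [instance] HS.normed HS.inner HS.complete

/-- Bounded linear operators. -/
abbrev Op (H : HS.{u}) (K : HS.{v}) : Type (max u v) := H.carrier →L[ℂ] K.carrier

/-- Application of an operator. -/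
def app {H : HS.{u}} {K : HS.{v}} (T : Op H K) (v : H.carrier) : K.carrier := T v

/-- Compactness of the operator given by a formula. -/
def Compact {H : HS.{u}} {K : HS.{v}} (f : H.carrier → K.carrier) : Prop := IsCompactOperator f

/-- `S` is the adjoint of `T`. -/
def IsAdj {H : HS.{u}} {K : HS.{v}} (T : Op H K) (S : Op K H) : Prop :=
  ∀ x y, ⟪app T x, y⟫_ℂ = ⟪x, app S y⟫_ℂ

/-- An isometry. -/
def IsIsometry {H : HS.{u}} {K : HS.{v}} (T : Op H K) : Prop := ∀ x, ‖app T x‖ = ‖x‖

/-- A unitary. -/
def IsUnitary {H : HS.{u}} {K : HS.{v}} (T : Op H K) : Prop :=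
  IsIsometry T ∧ Function.Surjective (app T)

/-- Separability. -/
def HS.Sep (H : HS.{u}) : Prop := TopologicalSpace.SeparableSpace H.carrier

end VP212.Lit
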