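import Vale.Agent.P212.Lit.Space
import Vale.Agent.P212.Lit.Hilbert

/-!
P212, printable form of the statement: K-homology by Fredholm modules, as in Higson-Roe.
-/

namespace VP212.Lit

variable {X : Type} [MetricSpace X] {R : ℝ}

/-- A star representation of the functions vanishing at infinity. -/
def IsRep {H : HS.{0}} (r : C0Fun X R → Op H H) : Prop :=
  (∀ f g h, (∀ p, h.toFun p = f.toFun p + g.toFun p) →
    ∀ v, app (r h) v = app (r f) v + app (r g) v) ∧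
  (∀ (c : ℂ) f h, (∀ p, h.toFun p = c * f.toFun p) → ∀ v, app (r h) v = c • app (r f) v) ∧
  (∀ f g h, (∀ p, h.toFun p = f.toFun p * g.toFun p) →
    ∀ v, app (r h) v = app (r f) (app (r g) v)) ∧
  ∀ f h, (∀ p, h.toFun p = starRingEnd ℂ (f.toFun p)) → IsAdj (r f) (r h)

/-- The axioms of an even Fredholm module with odd operator given by `W` and `V`. -/
def IsFred {H0 H1 : HS.{0}} (r0 : C0Fun X R → Op H0 H0) (r1 : C0Fun X R → Op H1 H1)
    (W : Op H0 H1) (V : Op H1 H0) : Prop :=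
  H0.Sep ∧ H1.Sep ∧ IsRep r0 ∧ IsRep r1 ∧ ∀ f,
    Compact (fun v => app W (app (r0 f) v) - app (r1 f) (app W v)) ∧
    Compact (fun v => app V (app (r1 f) v) - app (r0 f) (app V v)) ∧
    Compact (fun v => app (r0 f) (app V (app W v) - v)) ∧
    Compact (fun v => app (r1 f) (app W (app V v) - v)) ∧
    ∃ W', IsAdj W W' ∧ Compact (fun v => app (r0 f) (app V v - app W' v))

variable (X R) in
/-- An even Fredholm module. -/
structure Cycle where
  H0 : HS.{0}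
  H1 : HS.{0}
  r0 : C0Fun X R → Op H0 H0
  r1 : C0Fun X R → Op H1 H1
  W : Op H0 H1
  V : Op H1 H0
  fred : IsFred r0 r1 W V

/-- Unitary equivalence. -/
def UnitEquiv (M N : Cycle X R) : Prop :=
  ∃ (U0 : Op M.H0 N.H0) (U1 : Op M.H1 N.H1), IsUnitary U0 ∧ IsUnitary U1 ∧
    (∀ f v, app U0 (app (M.r0 f) v) = app (N.r0 f) (app U0 v)) ∧
    (∀ f v, app U1 (app (M.r1 f) v) = app (N.r1 f) (app U1 v)) ∧
    (∀ v, app U1 (app M.W v) = app N.W (app U0 v)) ∧
    ∀ v, app U0 (app M.V v) = app N.V (app U1 v)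

/-- Norm continuity of a path of operators. -/
def NormCont {H K : HS.{0}} (W : ℝ → Op H K) : Prop :=
  ∀ t ε, 0 < ε → ∃ δ, 0 < δ ∧ ∀ s, |s - t| < δ →
    ∀ v, ‖app (W s) v - app (W t) v‖ ≤ ε * ‖v‖

/-- Operator homotopy. -/
def Homotopic (M N : Cycle X R) : Prop :=
  ∃ (H0 H1 : HS.{0}) (r0 : C0Fun X R → Op H0 H0) (r1 : C0Fun X R → Op H1 H1)
    (W : ℝ → Op H0 H1) (V : ℝ → Op H1 H0) (h : ∀ t, IsFred r0 r1 (W t) (V t)),
    NormCont W ∧ NormCont V ∧ M = ⟨H0, H1, r0, r1, W 0, V 0, h 0⟩ ∧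
      N = ⟨H0, H1, r0, r1, W 1, V 1, h 1⟩

/-- `i` and `j` exhibit the third space as the orthogonal direct sum of the first two. -/
def Splits {H K D : HS.{0}} (i : Op H D) (j : Op K D) : Prop :=
  (∀ x y, ‖app i x + app j y‖ ^ 2 = ‖x‖ ^ 2 + ‖y‖ ^ 2) ∧
    ∀ z, ∃ x y, app i x + app j y = z

/-- `D` is the direct sum of `M` and `N`. -/
def IsSum (M N D : Cycle X R) : Prop :=
  ∃ (i0 : Op M.H0 D.H0) (j0 : Op N.H0 D.H0) (i1 : Op M.H1 D.H1) (j1 : Op N.H1 D.H1),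
    Splits i0 j0 ∧ Splits i1 j1 ∧
    (∀ f v, app (D.r0 f) (app i0 v) = app i0 (app (M.r0 f) v)) ∧
    (∀ f v, app (D.r0 f) (app j0 v) = app j0 (app (N.r0 f) v)) ∧
    (∀ f v, app (D.r1 f) (app i1 v) = app i1 (app (M.r1 f) v)) ∧
    (∀ f v, app (D.r1 f) (app j1 v) = app j1 (app (N.r1 f) v)) ∧
    (∀ v, app D.W (app i0 v) = app i1 (app M.W v)) ∧
    (∀ v, app D.W (app j0 v) = app j1 (app N.W v)) ∧
    (∀ v, app D.V (app i1 v) = app i0 (app M.V v)) ∧
    ∀ v, app D.V (app j1 v) = app j0 (app N.V v)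

/-- The defining relations of K-homology. -/
def relations (X : Type) [MetricSpace X] (R : ℝ) : Set (FreeAbelianGroup (Cycle X R)) :=
  {z | ∃ M N, (UnitEquiv M N ∨ Homotopic M N) ∧
      z = FreeAbelianGroup.of M - FreeAbelianGroup.of N} ∪
  {z | ∃ M N D, IsSum M N D ∧
      z = FreeAbelianGroup.of M + FreeAbelianGroup.of N - FreeAbelianGroup.of D}

/-- The class of `M` is killed by `k` in `K^0(C0(P_R X))`. -/
def KilledBy (k : ℕ) (M : Cycle X R) : Prop :=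
  k • FreeAbelianGroup.of M ∈ AddSubgroup.closure (relations X R)

theorem IsRep.restrict {R R' : ℝ} (h : R ≤ R') {H : HS.{0}} {r : C0Fun X R → Op H H}
    (hr : IsRep r) : IsRep fun f : C0Fun X R' => r (f.restrict h) :=
  ⟨fun f g k hk => hr.1 _ _ _ fun _ => hk _, fun c f k hk => hr.2.1 c _ _ fun _ => hk _,
    fun f g k hk => hr.2.2.1 _ _ _ fun _ => hk _, fun f k hk => hr.2.2.2 _ _ fun _ => hk _⟩

/-- Push-forward to a larger scale. -/
def Cycle.push {R R' : ℝ} (h : R ≤ R') (M : Cycle X R) : Cycle X R' :=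
  ⟨M.H0, M.H1, fun f => M.r0 (f.restrict h), fun f => M.r1 (f.restrict h), M.W, M.V,
    M.fred.1, M.fred.2.1, M.fred.2.2.1.restrict h, M.fred.2.2.2.1.restrict h,
    fun f => M.fred.2.2.2.2 (f.restrict h)⟩

end VP212.Lit
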