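import Vale.Agent.P212.Lit.Hilbert

/-!
P212, printable form of the statement: Roe algebras.
-/

namespace VP212.Lit

/-- `l2(X) ⊗ l2(N)`. -/
noncomputable def roeHS (X : Type) : HS.{0} := ⟨lp (fun _ : X × ℕ => ℂ) 2⟩

/-- A coordinate. -/
def coord {X : Type} (v : (roeHS X).carrier) (x : X) (k : ℕ) : ℂ :=
  (id v : lp (fun _ : X × ℕ => ℂ) 2) (x, k)

variable {X : Type}

/-- The projection onto the fibre over `x`. -/
def IsFibreProj (x : X) (e : Op (roeHS X) (roeHS X)) : Prop :=
  ∀ v y k, (y = x → coord (app e v) y k = coord v y k) ∧ (y ≠ x → coord (app e v) y k = 0)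

variable [MetricSpace X]

/-- Membership of `C[X]`: finite propagation and compact entries. -/
def IsRoe (T : Op (roeHS X) (roeHS X)) : Prop :=
  (∃ R : ℝ, ∀ v x, (∀ y l, dist x y ≤ R → coord v y l = 0) → ∀ k, coord (app T v) x k = 0) ∧
  ∀ x y e e', IsFibreProj x e → IsFibreProj y e' →
    Compact (fun v => app e (app T (app e' v)))

variable (X)

/-- A star representation of `C[X]`. -/
structure Rep where
  H : HS.{0}
  π : Op (roeHS X) (roeHS X) → Op H H
  map_add : ∀ S T U, IsRoe S → IsRoe T → (∀ v, app U v = app S v + app T v) →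
    ∀ w, app (π U) w = app (π S) w + app (π T) w
  map_smul : ∀ (c : ℂ) S U, IsRoe S → (∀ v, app U v = c • app S v) →
    ∀ w, app (π U) w = c • app (π S) w
  map_mul : ∀ S T U, IsRoe S → IsRoe T → (∀ v, app U v = app S (app T v)) →
    ∀ w, app (π U) w = app (π S) (app (π T) w)
  map_star : ∀ S U, IsRoe S → IsAdj S U → IsAdj (π S) (π U)

/-- The sum of all representations. -/
noncomputable def univHS : HS.{1} := ⟨lp (fun π : Rep X => π.H.carrier) 2⟩

variable {X}

/-- A component of a vector of the sum. -/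
def ucomp (v : (univHS X).carrier) (π : Rep X) : π.H.carrier :=
  (id v : lp (fun π : Rep X => π.H.carrier) 2) π

/-- `A` is the image of `T` in the universal representation. -/
def IsImage (T : Op (roeHS X) (roeHS X)) (A : Op (univHS X) (univHS X)) : Prop :=
  ∀ v π, ucomp (app A v) π = app (π.π T) (ucomp v π)

variable (X)

/-- The universal norm is finite. -/
def MaxNormFinite : Prop := ∀ T, IsRoe T → ∃ A : Op (univHS X) (univHS X), IsImage T A

variable {X}

/-- `B` lies in the norm closure of the image of `C[X]`, the maximal Roe algebra. -/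
def InMaxRoe (B : Op (univHS X) (univHS X)) : Prop :=
  ∀ ε : ℝ, 0 < ε → ∃ T A, IsRoe T ∧ IsImage T A ∧ ∀ v, ‖app B v - app A v‖ ≤ ε * ‖v‖

/-- `A` lies in the unitisation. -/
def InUnit (A : Op (univHS X) (univHS X)) : Prop :=
  ∃ (z : ℂ) (B : Op (univHS X) (univHS X)), InMaxRoe B ∧ ∀ v, app A v = z • v + app B v

/-- The entries of `e ⊕ 1_m ⊕ 0_n`. -/
def stab {H : HS.{1}} (e : Fin 2 → Fin 2 → H.carrier → H.carrier) (m n : ℕ) :
    (Fin 2 ⊕ Fin m ⊕ Fin n) → (Fin 2 ⊕ Fin m ⊕ Fin n) → H.carrier → H.carrier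
  | .inl i, .inl j => e i j
  | .inr (.inl i), .inr (.inl j) => if i = j then id else fun _ => 0
  | _, _ => fun _ => 0

/-- Two idempotent two-by-two matrices over the unitisation have the same class in K0: after
adding a common identity block and a zero block they are algebraically equivalent. -/
def SameK0 (e f : Fin 2 → Fin 2 → (univHS X).carrier → (univHS X).carrier) : Prop :=
  ∃ (m n : ℕ) (a b : (Fin 2 ⊕ Fin m ⊕ Fin n) → (Fin 2 ⊕ Fin m ⊕ Fin n) →
      Op (univHS X) (univHS X)),
    (∀ i j, InUnit (a i j)) ∧ (∀ i j, InUnit (b i j)) ∧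
    (∀ i j v, ∑ k, app (a i k) (app (b k j) v) = stab e m n i j v) ∧
    ∀ i j v, ∑ k, app (b i k) (app (a k j) v) = stab f m n i j v

end VP212.Lit
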