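import Vale.Agent.P212.Lit.KHom
import Vale.Agent.P212.Lit.Roe

/-!
P212, printable form of the statement.
-/

namespace VP212.Lit

variable {X : Type} [MetricSpace X] {R : ℝ}

/-- The representation is nondegenerate: no nonzero vector is annihilated by all functions. -/
def Nondeg {H : HS.{0}} (r : C0Fun X R → Op H H) : Prop :=
  ∀ v, (∀ f, app (r f) v = 0) → v = 0

/-- `W` has propagation at most `S`, measured on support vertices. -/
def Propagates {H K : HS.{0}} (r : C0Fun X R → Op H H) (r' : C0Fun X R → Op K K) (W : Op H K)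
    (S : ℝ) : Prop :=
  ∀ f g, (∀ p q : RipsPt X R, f.toFun p ≠ 0 → g.toFun q ≠ 0 →
      ∀ y z, p.coeff y ≠ 0 → q.coeff z ≠ 0 → S < dist y z) →
    ∀ v, app (r' g) (app W (app (r f) v)) = 0

/-- An isometry covering the coarse equivalence between the Rips complex and `X`. -/
def IsCovering {H : HS.{0}} (r : C0Fun X R → Op H H) (J : Op H (roeHS X)) : Prop :=
  IsIsometry J ∧ ∃ S : ℝ, ∀ f x,
    (∀ p : RipsPt X R, (∃ y, p.coeff y ≠ 0 ∧ dist x y ≤ S) → f.toFun p = 0) →
      ∀ v k, coord (app J (app (r f) v)) x k = 0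

/-- `1 - V W`. -/
def defect {H K : HS.{0}} (W : Op H K) (V : Op K H) (v : H.carrier) : H.carrier :=
  v - app V (app W v)

/-- The entries of the index idempotent minus `diag(0,1)`, moved by covering isometries with
adjoints `J0'` and `J1'`. With `S0 = 1-VW` and `S1 = 1-WV` these are `S0^2`, `S0(1+S0)V`,
`S1 W` and `-S1^2`. -/
def IsIndexData (M : Cycle X R) (J0 : Op M.H0 (roeHS X)) (J1 : Op M.H1 (roeHS X))
    (T : Fin 2 → Fin 2 → Op (roeHS X) (roeHS X)) : Prop :=
  ∃ J0' J1', IsAdj J0 J0' ∧ IsAdj J1 J1' ∧ ∀ u,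
    app (T 0 0) u = app J0 (defect M.W M.V (defect M.W M.V (app J0' u))) ∧
    app (T 0 1) u = app J0 (defect M.W M.V (app M.V (app J1' u) +
      defect M.W M.V (app M.V (app J1' u)))) ∧
    app (T 1 0) u = app J1 (defect M.V M.W (app M.W (app J0' u))) ∧
    app (T 1 1) u = -app J1 (defect M.V M.W (defect M.V M.W (app J1' u)))

/-- The entries of `diag(0,1)`. -/
def baseIdem {H : HS.{1}} (i j : Fin 2) (v : H.carrier) : H.carrier :=
  if i = 1 ∧ j = 1 then v else 0

/-- The maximal assembly map sends the class of the geometric module `M` to zero. -/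
def AssemblyVanishes (M : Cycle X R) : Prop :=
  Nondeg M.r0 ∧ Nondeg M.r1 ∧
    (∃ S, Propagates M.r0 M.r1 M.W S ∧ Propagates M.r1 M.r0 M.V S) ∧
    ∃ J0 J1 T, IsCovering M.r0 J0 ∧ IsCovering M.r1 J1 ∧ IsIndexData M J0 J1 T ∧
      (∀ i j, IsRoe (T i j)) ∧
      ∃ A : Fin 2 → Fin 2 → Op (univHS X) (univHS X), (∀ i j, IsImage (T i j) (A i j)) ∧
        SameK0 (fun i j v => baseIdem i j v + app (A i j) v) baseIdem

/-- The negative answer to P212: bounded geometry, and a class of `KX_0` killed by no positive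
integer at any scale which the maximal assembly map sends to zero. -/
def Disproof : Prop :=
  ∃ (X : Type) (_ : MetricSpace X), UniformlyDiscrete X ∧ BoundedGeometry X ∧ MaxNormFinite X ∧
    ∃ (r : ℝ) (M : Cycle X r), AssemblyVanishes M ∧
      ∀ R (h : r ≤ R) (k : ℕ), 0 < k → ¬ KilledBy k (M.push h)

end VP212.Lit
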